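import Vale.Agent.P006.V1M.Ram

/-!
P006, block V1M (helper474): the cubes in the dual sum.
-/

namespace Vale.Agent.P006.V1

open MeasureTheory Set
open scoped BigOperators Classical
open Vale.Agent.P006
open Vale.Agent.P006.KU (phi phi_primary beta)

/-! ### The cubic phase -/

theorem E_sq3_three_add (x y : O) : E (sq3 * 3) (x + 3 * y) = E (sq3 * 3) x := by
  rw [E_add, mul_comm sq3 3, E_mul_cancel three_ne_zero', E_sq3, mul_one]

theorem E_sq3_three_one : E (sq3 * 3) 1 = 1 := by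
  have h : TrC (toC 1 / toC (sq3 * 3)) = 0 := by
    rw [map_one, TrC]
    have h1 : toC (sq3 * 3) = (3 * Real.sqrt 3 : ℝ) * Complex.I := by
      have : sq3 * 3 = PO.rt3 * 3 := rfl
      rw [this, map_mul, PO.toC_rt3]
      have h3 : toC (3 : O) = 3 := by
        have := toC_natCast 3
        exact_mod_cast this
      rw [h3]; push_cast; ring
    rw [h1]
    simp [Complex.inv_re]
  rw [E, h, e_zero]

theorem E_sq3_three_neg_one : E (sq3 * 3) (-1) = 1 := by
  rw [E_neg, E_sq3_three_one, map_one]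

theorem unit_cube {u : O} (hu : IsUnit u) : u ^ 3 = 1 ∨ u ^ 3 = -1 := by
  rcases isUnit_cases hu with h | h | h | h | h | h <;> subst h <;> decide

theorem E_cube (ν : O) : E (sq3 * 3) (ν ^ 3) = 1 := by
  by_cases hl : lam ∣ ν
  · obtain ⟨y, rfl⟩ := hl
    apply E_of_dvd (by decide)
    refine ⟨-y ^ 3, ?_⟩
    have : lam ^ 3 = -(sq3 * 3) := by decide
    rw [mul_pow, this]; ring
  · obtain ⟨u, hu, hp⟩ := exists_unit_mul_primary hl
    obtain ⟨y, hy⟩ := hp
    have h1 : (u * ν) ^ 3 = 1 + 3 * (3 * y + 9 * y ^ 2 + 9 * y ^ 3) := by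
      have : u * ν = 1 + 3 * y := by linear_combination hy
      rw [this]; ring
    rw [mul_pow] at h1
    rcases unit_cube hu with h | h
    · rw [h, one_mul] at h1
      rw [h1, E_sq3_three_add, E_sq3_three_one]
    · have h2 : ν ^ 3 = -1 + 3 * (-(3 * y + 9 * y ^ 2 + 9 * y ^ 3)) := by
        rw [h] at h1
        linear_combination -h1
      rw [h2, E_sq3_three_add, E_sq3_three_neg_one]

theorem E_mul_cube {u : O} (hu : Primary u) (ν : O) : E (sq3 * 3) (u * ν ^ 3) = 1 := by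
  obtain ⟨y, hy⟩ := hu
  have h : u * ν ^ 3 = ν ^ 3 + 3 * (y * ν ^ 3) := by linear_combination ν ^ 3 * hy
  rw [h, E_sq3_three_add, E_cube]

/-! ### Which frequencies are cubes -/

theorem cube_iff {W d k : O} (h0 : W * d ≠ 0) (hs : Squarefree (W * d)) :
    (∃ μ : O, k * d * W ^ 2 = μ ^ 3) ↔ ∃ ν : O, k = d ^ 2 * W * ν ^ 3 := by
  have hW : W ≠ 0 := left_ne_zero_of_mul h0
  have hd : d ≠ 0 := right_ne_zero_of_mul h0
  constructor
  · rintro ⟨μ, hμ⟩
    have h1 : W * d ∣ μ ^ 3 := by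
      rw [← hμ]; exact ⟨k * W, by ring⟩
    obtain ⟨ν, rfl⟩ := hs.isRadical 3 μ h1
    refine ⟨ν, ?_⟩
    have h2 : (d * W ^ 2) * k = (d * W ^ 2) * (d ^ 2 * W * ν ^ 3) := by
      linear_combination hμ
    exact mul_left_cancel₀ (mul_ne_zero hd (pow_ne_zero 2 hW)) h2
  · rintro ⟨ν, rfl⟩
    exact ⟨d * W * ν, by ring⟩

theorem cube_eq_cube_iff {x y : O} : x ^ 3 = y ^ 3 ↔ x = y ∨ x = om * y ∨ x = om ^ 2 * y := by
  constructor
  · intro h
    have h1 : (x - y) * ((x - om * y) * (x - om ^ 2 * y)) = 0 := by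
      have e1 := one_add_om
      have e2 := om_cube
      linear_combination h + (x * y ^ 2 - x ^ 2 * y) * e1 + (- y ^ 3 + x * y ^ 2) * e2
    rcases mul_eq_zero.1 h1 with h2 | h2
    · left; exact sub_eq_zero.1 h2
    · rcases mul_eq_zero.1 h2 with h3 | h3
      · right; left; exact sub_eq_zero.1 h3
      · right; right; exact sub_eq_zero.1 h3
  · rintro (h | h | h)
    · rw [h]
    · rw [h, mul_pow, om_cube, one_mul]
    · rw [h, mul_pow, ← pow_mul, mul_comm 2 3, pow_mul, om_cube, one_pow, one_mul]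

theorem card_fiber {u k ν₀ : O} (hu : u ≠ 0) (hk : k ≠ 0) (h : u * ν₀ ^ 3 = k) :
    Nat.card {ν : O // u * ν ^ 3 = k} = 3 := by
  have hν : ν₀ ≠ 0 := by
    rintro rfl
    apply hk
    rw [← h]; ring
  have hset : {ν : O | u * ν ^ 3 = k} = (({ν₀, om * ν₀, om ^ 2 * ν₀} : Finset O) : Set O) := by
    ext ν
    simp only [Set.mem_ofPred_eq, Finset.coe_insert, Finset.coe_singleton, Set.mem_insert_iff,
      Set.mem_singleton_iff]
    rw [← cube_eq_cube_iff, ← h]
    exact ⟨fun h => mul_left_cancel₀ hu h, fun h => by rw [h]⟩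
  have h1 : Nat.card {ν : O // u * ν ^ 3 = k} = Nat.card {ν : O | u * ν ^ 3 = k} := rfl
  rw [h1, hset, Nat.card_coe_set_eq, Set.ncard_coe_finset, Finset.card_eq_three]
  have n1 : om ≠ 1 := by decide
  have n2 : om ^ 2 ≠ 1 := by decide
  have n3 : om ^ 2 ≠ om := by decide
  refine ⟨ν₀, om * ν₀, om ^ 2 * ν₀, ?_, ?_, ?_, rfl⟩
  · intro h; apply n1
    exact mul_right_cancel₀ hν (by rw [one_mul]; exact h.symm)
  · intro h; apply n2
    exact mul_right_cancel₀ hν (by rw [one_mul]; exact h.symm)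
  · intro h; apply n3
    exact mul_right_cancel₀ hν h.symm

/-- the sum over the cubes, as a sum over their cube roots -/
theorem hasSum_cube {u : O} (hu : u ≠ 0) (F : O → ℂ)
    (hF : Summable (fun ν : O => if ν = 0 then 0 else F (u * ν ^ 3))) :
    ∑' k : O, (if k ≠ 0 ∧ ∃ ν, k = u * ν ^ 3 then F k else 0) =
      (1 / 3) * ∑' ν : O, (if ν = 0 then 0 else F (u * ν ^ 3)) := by
  set g : O → O := fun ν => u * ν ^ 3 with hg
  set G : O → ℂ := fun ν => if ν = 0 then 0 else F (u * ν ^ 3) with hG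
  have hsum : Summable (G ∘ (Equiv.sigmaFiberEquiv g)) :=
    (Equiv.summable_iff (Equiv.sigmaFiberEquiv g)).2 hF
  have h1 : ∑' ν : O, G ν =
      ∑' (p : Σ k, {ν : O // g ν = k}), (G ∘ (Equiv.sigmaFiberEquiv g)) p :=
    ((Equiv.sigmaFiberEquiv g).tsum_eq G).symm
  rw [h1, hsum.tsum_sigma, ← tsum_mul_left]
  refine tsum_congr fun k => ?_
  by_cases hk : k = 0
  · subst hk
    have : ∀ c : {ν : O // g ν = 0}, (G ∘ (Equiv.sigmaFiberEquiv g)) ⟨0, c⟩ = 0 := by
      rintro ⟨ν, hν⟩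
      have h2 : ν = 0 := by
        rcases mul_eq_zero.1 hν with h | h
        · exact absurd h hu
        · exact pow_eq_zero_iff (three_ne_zero) |>.1 h
      subst h2
      simp [G, Equiv.sigmaFiberEquiv]
    simp only [this, tsum_zero]
    simp
  · by_cases he : ∃ ν, k = u * ν ^ 3
    · obtain ⟨ν₀, hν₀⟩ := he
      rw [if_pos ⟨hk, ν₀, hν₀⟩]
      have : ∀ c : {ν : O // g ν = k}, (G ∘ (Equiv.sigmaFiberEquiv g)) ⟨k, c⟩ = F k := by
        rintro ⟨ν, hν⟩
        have hν0 : ν ≠ 0 := by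
          rintro rfl
          apply hk
          rw [← hν, hg]; simp
        have h3 : u * ν ^ 3 = k := hν
        simp only [G, Equiv.sigmaFiberEquiv, Function.comp, Equiv.coe_fn_mk, if_neg hν0, h3]
      simp only [this]
      rw [tsum_const, card_fiber hu hk hν₀.symm]
      simp
    · rw [if_neg (fun h => he h.2)]
      have : IsEmpty {ν : O // g ν = k} := ⟨fun ⟨ν, hν⟩ => he ⟨ν, hν.symm⟩⟩
      rw [tsum_empty, mul_zero]

end Vale.Agent.P006.V1
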