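import Vale.Agent.P006.V1M.Cubes

/-!
P006, block V1M (helper474): the cubes in the dual sum of one pair give the main term.
-/

namespace Vale.Agent.P006.V1

open MeasureTheory Set
open scoped BigOperators Classical
open Vale.Agent.P006
open Vale.Agent.P006.KU (phi phi_primary beta)

theorem CM_Vo (V : ℝ → ℂ) (t : ℝ) : CM.Vo V t = PO.Vo V t := by
  rw [CM.Vo_eq, ← CM.FT_eq_Fhat, PO.Vo]
  rfl

/-- `κ₀ = (2π)^{4/3} Γ(1/3) / (81 Γ(2/3))` -/
noncomputable def kap0 : ℝ :=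
  (2 * Real.pi) ^ (4 / 3 : ℝ) * Real.Gamma (1 / 3) / (81 * Real.Gamma (2 / 3))

theorem kap0_eq : kap0 = 2 / (9 * Real.sqrt 3) * CM.kap3 := by
  rw [kap0, CM.kap3]
  have h3 : Real.sqrt 3 * Real.sqrt 3 = 3 := Real.mul_self_sqrt (by norm_num)
  have h : 0 < Real.sqrt 3 := Real.sqrt_pos.2 (by norm_num)
  have hG : Real.Gamma (2 / 3) ≠ 0 := (Real.Gamma_pos_of_pos (by norm_num)).ne'
  rw [div_mul_div_comm, div_eq_div_iff (by positivity) (by positivity)]
  linear_combination (-(54 : ℝ) * (2 * Real.pi) ^ (4 / 3 : ℝ) * Real.Gamma (1 / 3) *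
    Real.Gamma (2 / 3)) * h3 * (-1)

theorem ch_cube' (b x : O) : ch b (x ^ 3) = cop b x := by
  by_cases h : IsCoprime x b
  · rw [ch_cube h, cop, if_pos h]
  · rw [cop, if_neg h, ch, sym_eq_zero.2, map_zero]
    intro h2
    exact h ((IsCoprime.pow_left_iff (by norm_num)).1 h2)

theorem cop_mul_cop (a b x : O) : cop a x * cop b x = cop (a * b) x := by
  simp only [cop]
  by_cases h1 : IsCoprime x a
  · by_cases h2 : IsCoprime x b
    · rw [if_pos h1, if_pos h2, if_pos (h1.mul_right h2), mul_one]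
    · have h3 : ¬ IsCoprime x (a * b) := fun h => h2 h.of_mul_right_right
      rw [if_neg h2, if_neg h3, mul_zero]
  · have h3 : ¬ IsCoprime x (a * b) := fun h => h1 h.of_mul_right_left
    rw [if_neg h1, if_neg h3, zero_mul]

theorem conj_cop (a x : O) : (starRingEnd ℂ) (cop a x) = cop a x := by
  rw [cop]; split_ifs <;> simp

/-- the general term at a cube -/
theorem pterm_cube {V : ℝ → ℂ} {B : ℝ} {W d r1 r2 : O} (hW : Primary W) (hd : Primary d)
    (h1 : Primary r1) (h2 : Primary r2) (hWd : IsCoprime W (d * (r1 * r2)))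
    (hdr : IsCoprime d (r1 * r2)) (ν : O) :
    pterm V B W d r1 r2 (d ^ 2 * W * ν ^ 3) =
      ((N W * phiq W * (N d * phiq d) : ℝ) : ℂ) * (cop (r1 * r2) ν *
        PO.Vo V ((N ν : ℝ) ^ 3 * (B * N d / (27 * N (r1 * r2))))) := by
  have hWr : IsCoprime W (r1 * r2) := hWd.of_mul_right_right
  have hc : IsCoprime (d * W) (r1 * r2) := hdr.mul_left hWr
  have hc1 : IsCoprime (d * W) r1 := hc.of_mul_right_left
  have hc2 : IsCoprime (d * W) r2 := hc.of_mul_right_right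
  rw [pterm, E_mul_cube ((hd.pow 2).mul hW), ram_of_dvd' hW ⟨d ^ 2 * ν ^ 3, by ring⟩,
    ram_of_dvd' hd ⟨d * W * ν ^ 3, by ring⟩]
  have e1 : d ^ 2 * W * ν ^ 3 * d * W ^ 2 = (d * W * ν) ^ 3 := by ring
  rw [e1, ch_cube', ch_cube', conj_cop, cop_mul hc1, cop_mul hc2, cop_mul_cop]
  have pW : (N W : ℝ) ≠ 0 := by exact_mod_cast (N_pos hW.ne_zero).ne'
  have pd : (N d : ℝ) ≠ 0 := by exact_mod_cast (N_pos hd.ne_zero).ne'
  have pr : (N (r1 * r2) : ℝ) ≠ 0 := by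
    exact_mod_cast (N_pos (mul_ne_zero h1.ne_zero h2.ne_zero)).ne'
  have e2 : B * N (d ^ 2 * W * ν ^ 3) / (27 * N (W * (d * (r1 * r2)))) =
      (N ν : ℝ) ^ 3 * (B * N d / (27 * N (r1 * r2))) := by
    rw [N_mul, N_mul, N_mul W, N_mul d, N_pow, N_pow]
    push_cast
    field_simp
  rw [e2]
  push_cast
  ring

/-! ### Removing the coprimality condition -/

theorem exists_crt_aux {a b : O} (h : IsCoprime a b) (x y : O) :
    ∃ z : O, a ∣ z - x ∧ b ∣ z - y := by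
  obtain ⟨u, v, huv⟩ := h
  exact ⟨x * (v * b) + y * (u * a), ⟨u * (y - x), by linear_combination x * huv⟩,
    ⟨v * (x - y), by linear_combination y * huv⟩⟩

/-- coprimality by Moebius, for a general second argument -/
theorem cop_eq_sum {r : O} (hr : Primary r) (ν : O) :
    cop r ν = ∑ m ∈ dvs r, (if m ∣ ν then (moeb m : ℂ) else 0) := by
  obtain ⟨z, hz1, hz2⟩ := exists_crt_aux (IsCoprime.symm hr.isCoprime_three) ν 1
  have hzp : Primary z := hz2
  have h1 := sum_moeb_common hr hzp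
  have hd : ∀ m ∈ dvs r, (m ∣ z ↔ m ∣ ν) := by
    intro m hm
    rw [mem_dvs hr.ne_zero] at hm
    have h3 : m ∣ z - ν := hm.2.trans hz1
    exact (dvd_iff_dvd_of_dvd_sub h3)
  have hc : IsCoprime r z ↔ IsCoprime ν r := by
    rw [isCoprime_comm, ← isUnit_rs_iff, rs_eq.2 hz1, isUnit_rs_iff]
  rw [cop]
  have h2 : ((∑ m ∈ (dvs r).filter (· ∣ z), moeb m : ℤ) : ℂ) =
      ((if IsCoprime r z then 1 else 0 : ℤ) : ℂ) := by rw [h1]
  rw [Finset.sum_filter] at h2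
  push_cast at h2
  rw [show (if IsCoprime ν r then (1 : ℂ) else 0) = if IsCoprime r z then (1 : ℂ) else 0 by
    simp only [hc], ← h2]
  refine Finset.sum_congr rfl fun m hm => ?_
  simp only [hd m hm]

theorem tsum_dvd {m : O} (hm : m ≠ 0) (F : O → ℂ) :
    ∑' ν : O, (if ν = 0 then 0 else if m ∣ ν then F ν else 0) =
      ∑' ν : O, (if ν = 0 then 0 else F (m * ν)) := by
  have hinj : Function.Injective (fun ν : O => m * ν) := fun x y h => mul_left_cancel₀ hm h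
  have hs : Function.support (fun ν : O => (if ν = 0 then 0 else if m ∣ ν then F ν else 0)) ⊆
      Set.range (fun ν : O => m * ν) := by
    intro ν hν
    rw [Function.mem_support] at hν
    by_contra h
    apply hν
    by_cases h0 : ν = 0
    · simp [h0]
    · rw [if_neg h0, if_neg]
      rintro ⟨y, rfl⟩
      exact h ⟨y, rfl⟩
  rw [← hinj.tsum_eq hs]
  refine tsum_congr fun ν => ?_
  by_cases h0 : ν = 0
  · simp [h0]
  · simp [h0, hm]

theorem rpow_mul_cube {T n : ℝ} (hT : 0 < T) (hn : 0 < n) :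
    (n ^ 3 * T) ^ (-(1 / 3) : ℝ) = T ^ (-(1 / 3) : ℝ) / n := by
  rw [Real.mul_rpow (by positivity) hT.le, ← Real.rpow_natCast n 3, ← Real.rpow_mul hn.le]
  norm_num
  rw [Real.rpow_neg_one]
  ring

/-- **The sum over the cubes with a coprimality condition.** -/
theorem cube_tsum {V : ℝ → ℂ} (hV : PO.Wt V) : ∃ C : ℝ, 0 < C ∧ ∀ T : ℝ, 0 < T → ∀ r : O,
    Primary r →
    Summable (fun ν : O => if ν = 0 then 0 else cop r ν * PO.Vo V ((N ν : ℝ) ^ 3 * T)) ∧
    ‖∑' ν : O, (if ν = 0 then 0 else cop r ν * PO.Vo V ((N ν : ℝ) ^ 3 * T)) -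
      CM.kap3 * ((T ^ (-(1 / 3) : ℝ) : ℝ) : ℂ) * CM.IV V * phiq r‖ ≤
      C * tau r * min 1 (T ^ (-(1 / 3) : ℝ)) := by
  obtain ⟨C, hC, h⟩ := CM.cube_sum V hV.smooth hV.supp
  simp only [CM_Vo] at h
  refine ⟨C, hC, fun T hT r hr => ?_⟩
  have hsum := (h T hT).1
  have hs1 : Summable (fun ν : O => if ν = 0 then 0 else
      cop r ν * PO.Vo V ((N ν : ℝ) ^ 3 * T)) := by
    refine Summable.of_norm_bounded hsum.norm fun ν => ?_
    split_ifs
    · simp
    · rw [norm_mul]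
      have := norm_cop_le r ν
      nlinarith [norm_nonneg (PO.Vo V ((N ν : ℝ) ^ 3 * T))]
  refine ⟨hs1, ?_⟩
  have hdvd : ∀ m ∈ dvs r, Summable (fun ν : O => if ν = 0 then 0 else
      if m ∣ ν then PO.Vo V ((N ν : ℝ) ^ 3 * T) else 0) := by
    intro m _
    refine Summable.of_norm_bounded hsum.norm fun ν => ?_
    split_ifs
    · simp
    · exact le_rfl
    · simp
  have h1 : ∀ ν : O, (if ν = 0 then 0 else cop r ν * PO.Vo V ((N ν : ℝ) ^ 3 * T)) =
      ∑ m ∈ dvs r, (moeb m : ℂ) * (if ν = 0 then 0 else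
        if m ∣ ν then PO.Vo V ((N ν : ℝ) ^ 3 * T) else 0) := by
    intro ν
    by_cases h0 : ν = 0
    · simp [h0]
    · simp only [if_neg h0]
      rw [cop_eq_sum hr, Finset.sum_mul]
      refine Finset.sum_congr rfl fun m _ => ?_
      split_ifs <;> simp
  have h2 : ∑' ν : O, (if ν = 0 then 0 else cop r ν * PO.Vo V ((N ν : ℝ) ^ 3 * T)) =
      ∑ m ∈ dvs r, (moeb m : ℂ) * ∑' ν : O, (if ν = 0 then 0 else
        PO.Vo V ((N ν : ℝ) ^ 3 * ((N m : ℝ) ^ 3 * T))) := by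
    rw [tsum_congr h1, Summable.tsum_finsetSum fun m hm => (hdvd m hm).mul_left _]
    refine Finset.sum_congr rfl fun m hm => ?_
    rw [mem_dvs hr.ne_zero] at hm
    rw [tsum_mul_left, tsum_dvd hm.1.ne_zero]
    congr 1
    refine tsum_congr fun ν => ?_
    rw [N_mul]
    push_cast
    rw [mul_pow]
    congr 2
    ring
  have h3 : CM.kap3 * ((T ^ (-(1 / 3) : ℝ) : ℝ) : ℂ) * CM.IV V * phiq r =
      ∑ m ∈ dvs r, (moeb m : ℂ) * (CM.kap3 *
        ((((N m : ℝ) ^ 3 * T) ^ (-(1 / 3) : ℝ) : ℝ) : ℂ) * CM.IV V) := by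
    rw [phiq_eq_sum hr]
    push_cast
    rw [Finset.mul_sum]
    refine Finset.sum_congr rfl fun m hm => ?_
    rw [mem_dvs hr.ne_zero] at hm
    have hN : (0 : ℝ) < N m := by exact_mod_cast N_pos hm.1.ne_zero
    rw [rpow_mul_cube hT hN]
    push_cast
    ring
  rw [h2, h3, ← Finset.sum_sub_distrib]
  refine (norm_sum_le _ _).trans ?_
  have h4 : ∀ m ∈ dvs r, ‖(moeb m : ℂ) * ∑' ν : O, (if ν = 0 then 0 else
        PO.Vo V ((N ν : ℝ) ^ 3 * ((N m : ℝ) ^ 3 * T))) - (moeb m : ℂ) * (CM.kap3 *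
        ((((N m : ℝ) ^ 3 * T) ^ (-(1 / 3) : ℝ) : ℝ) : ℂ) * CM.IV V)‖ ≤
      C * min 1 (T ^ (-(1 / 3) : ℝ)) := by
    intro m hm
    rw [mem_dvs hr.ne_zero] at hm
    have hN : (1 : ℝ) ≤ N m := by exact_mod_cast N_pos hm.1.ne_zero
    have hN0 : (0 : ℝ) < N m := by linarith
    have hm1 : ‖(moeb m : ℂ)‖ ≤ 1 := by
      rw [Complex.norm_intCast]
      exact_mod_cast abs_moeb_le m
    rw [← mul_sub, norm_mul]
    have h5 := (h ((N m : ℝ) ^ 3 * T) (by positivity)).2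
    have h6 : C * min 1 (((N m : ℝ) ^ 3 * T) ^ (-(1 / 3) : ℝ)) ≤
        C * min 1 (T ^ (-(1 / 3) : ℝ)) := by
      rw [rpow_mul_cube hT hN0]
      have : T ^ (-(1 / 3) : ℝ) / N m ≤ T ^ (-(1 / 3) : ℝ) := div_le_self (by positivity) hN
      gcongr
    calc _ ≤ 1 * (C * min 1 (T ^ (-(1 / 3) : ℝ))) :=
          mul_le_mul hm1 (h5.trans h6) (norm_nonneg _) zero_le_one
      _ = _ := one_mul _
  refine (Finset.sum_le_sum h4).trans ?_
  rw [Finset.sum_const, nsmul_eq_mul, tau]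
  apply le_of_eq
  ring

end Vale.Agent.P006.V1
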