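import Vale.Agent.P006.V1M.Main

/-!
P006, block V1M (helper474): main term and error of one pair.
-/

namespace Vale.Agent.P006.V1

open MeasureTheory Set
open scoped BigOperators Classical
open Vale.Agent.P006
open Vale.Agent.P006.KU (phi phi_primary beta)

section RealAlgebra

variable {B D R : ℝ}

theorem T_rpow (hB : 0 < B) (hD : 0 < D) (hR : 0 < R) :
    (B * D / (27 * R)) ^ (-(1 / 3) : ℝ) = 3 * (R / (B * D)) ^ (1 / 3 : ℝ) := by
  rw [Real.rpow_neg (by positivity), ← Real.inv_rpow (by positivity)]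
  have h : (B * D / (27 * R))⁻¹ = 27 * (R / (B * D)) := by
    field_simp
  rw [h, Real.mul_rpow (by norm_num) (by positivity)]
  congr 1
  rw [show (27 : ℝ) = 3 ^ (3 : ℝ) by norm_num, ← Real.rpow_mul (by norm_num)]
  norm_num

theorem main_rpow (hB : 0 < B) (hD : 0 < D) (hR : 0 < R) :
    B / Real.sqrt R * (R / (B * D)) ^ (1 / 3 : ℝ) =
      B ^ (2 / 3 : ℝ) * (D ^ 2 * R) ^ (-(1 / 6) : ℝ) := by
  rw [Real.sqrt_eq_rpow, Real.div_rpow hR.le (by positivity), Real.mul_rpow hB.le hD.le,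
    Real.mul_rpow (by positivity) hR.le, ← Real.rpow_natCast D 2, ← Real.rpow_mul hD.le]
  have h1 : B ^ (2 / 3 : ℝ) = B / B ^ (1 / 3 : ℝ) := by
    rw [eq_div_iff (by positivity), ← Real.rpow_add hB]; norm_num
  have h2 : D ^ (((2 : ℕ) : ℝ) * (-(1 / 6) : ℝ)) = (D ^ (1 / 3 : ℝ))⁻¹ := by
    rw [← Real.rpow_neg hD.le]; norm_num
  have h3 : R ^ (-(1 / 6) : ℝ) = R ^ (1 / 3 : ℝ) / R ^ (1 / 2 : ℝ) := by
    rw [eq_div_iff (by positivity), ← Real.rpow_add hR]; norm_num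
  rw [h1, h2, h3]
  field_simp

theorem err_rpow (hD : 0 < D) (hR : 0 < R) :
    D * (D ^ 2 * R) ^ (-(1 / 2) : ℝ) = 1 / Real.sqrt R := by
  rw [Real.sqrt_eq_rpow, Real.mul_rpow (by positivity) hR.le, ← Real.rpow_natCast D 2,
    ← Real.rpow_mul hD.le, Real.rpow_neg hR.le]
  have h2 : D ^ (((2 : ℕ) : ℝ) * (-(1 / 2) : ℝ)) = D⁻¹ := by
    rw [← Real.rpow_neg_one]; norm_num
  rw [h2]
  field_simp

end RealAlgebra

theorem N_pair (d r1 r2 : O) :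
    ((N (d * r1) : ℝ) * N (d * r2)) = (N d : ℝ) ^ 2 * N (r1 * r2) := by
  rw [N_mul, N_mul, N_mul]; push_cast; ring

/-- **The cubes in one pair.** -/
theorem cube_pair {V : ℝ → ℂ} (hV : PO.Wt V) : ∃ C : ℝ, 0 < C ∧ ∀ B : ℝ, 0 < B →
    ∀ W d r1 r2 : O, Primary W → Primary d → Primary r1 → Primary r2 → Squarefree (W * d) →
    IsCoprime W (d * (r1 * r2)) → IsCoprime d (r1 * r2) →
    ‖(pcoef B W d r1 r2 : ℂ) * ∑' k : O, (if k ≠ 0 ∧ (∃ μ, k * d * W ^ 2 = μ ^ 3) then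
        pterm V B W d r1 r2 k else 0) -
      ((kap0 * phiq W * B ^ (2 / 3 : ℝ) * ((N (d * r1) : ℝ) * N (d * r2)) ^ (-(1 / 6) : ℝ) *
        phiq (d * (r1 * r2)) : ℝ) : ℂ) * CM.IV V‖ ≤
      C * phiq W * B * N d * ((N (d * r1) : ℝ) * N (d * r2)) ^ (-(1 / 2) : ℝ) * tau (r1 * r2) *
        min 1 ((N (r1 * r2) / (B * N d) : ℝ) ^ (1 / 3 : ℝ)) := by
  obtain ⟨C, hC, h⟩ := cube_tsum hV
  refine ⟨C, hC, fun B hB W d r1 r2 hW hd h1 h2 hs hWd hdr => ?_⟩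
  have hr : Primary (r1 * r2) := h1.mul h2
  have hN3 : (0 : ℝ) < N (r1 * r2) := by exact_mod_cast N_pos hr.ne_zero
  have hNd : (0 : ℝ) < N d := by exact_mod_cast N_pos hd.ne_zero
  have hNW : (0 : ℝ) < N W := by exact_mod_cast N_pos hW.ne_zero
  set T : ℝ := B * N d / (27 * N (r1 * r2)) with hTdef
  have hT : 0 < T := by positivity
  obtain ⟨hsum, hb⟩ := h T hT (r1 * r2) hr
  have hpW := phiq_pos hW.ne_zero
  have hpd := phiq_pos hd.ne_zero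
  have hpd1 := phiq_le_one hd.ne_zero
  -- the sum over the cubes
  have hu : d ^ 2 * W ≠ 0 := mul_ne_zero (pow_ne_zero 2 hd.ne_zero) hW.ne_zero
  set c1 : ℝ := N W * phiq W * (N d * phiq d) with hc1
  have e1 : ∀ ν : O, (if ν = 0 then 0 else pterm V B W d r1 r2 (d ^ 2 * W * ν ^ 3)) =
      (c1 : ℂ) * (if ν = 0 then 0 else cop (r1 * r2) ν * PO.Vo V ((N ν : ℝ) ^ 3 * T)) := by
    intro ν
    split_ifs
    · simp
    · rw [pterm_cube hW hd h1 h2 hWd hdr]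
  have hsum2 : Summable (fun ν : O => if ν = 0 then 0 else
      pterm V B W d r1 r2 (d ^ 2 * W * ν ^ 3)) := by
    simp only [e1]
    exact hsum.mul_left _
  have e2 : ∑' k : O, (if k ≠ 0 ∧ (∃ μ, k * d * W ^ 2 = μ ^ 3) then
        pterm V B W d r1 r2 k else 0) = (1 / 3) * ((c1 : ℂ) *
      ∑' ν : O, (if ν = 0 then 0 else cop (r1 * r2) ν * PO.Vo V ((N ν : ℝ) ^ 3 * T))) := by
    rw [← tsum_mul_left, ← tsum_congr e1, ← hasSum_cube hu _ hsum2]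
    refine tsum_congr fun k => ?_
    simp only [cube_iff (mul_ne_zero hW.ne_zero hd.ne_zero) hs]
  have s3 : 0 < Real.sqrt 3 := Real.sqrt_pos.2 (by norm_num)
  have sR : 0 < Real.sqrt (N (r1 * r2) : ℝ) := Real.sqrt_pos.2 hN3
  set A : ℝ := 2 * (phiq W * phiq d) / (27 * Real.sqrt 3) * (B / Real.sqrt (N (r1 * r2))) with hA
  have hcoef : pcoef B W d r1 r2 * ((1 / 3) * c1) = A := by
    rw [pcoef, hc1, hA]
    field_simp
    try norm_num
  have hA0 : 0 ≤ A := by positivity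
  have e3 : kap0 * phiq W * B ^ (2 / 3 : ℝ) * ((N (d * r1) : ℝ) * N (d * r2)) ^ (-(1 / 6) : ℝ) *
        phiq (d * (r1 * r2)) = A * (CM.kap3 * T ^ (-(1 / 3) : ℝ) * phiq (r1 * r2)) := by
    rw [hTdef, T_rpow hB hNd hN3, N_pair, phiq_mul hd hr hdr, kap0_eq, hA]
    have := main_rpow hB hNd hN3
    linear_combination (-(2 / (9 * Real.sqrt 3) * CM.kap3 * phiq W * (phiq d *
      phiq (r1 * r2)))) * this
  have e4 : (pcoef B W d r1 r2 : ℂ) * ((1 / 3) * ((c1 : ℂ) *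
      ∑' ν : O, (if ν = 0 then 0 else cop (r1 * r2) ν * PO.Vo V ((N ν : ℝ) ^ 3 * T)))) -
      ((kap0 * phiq W * B ^ (2 / 3 : ℝ) * ((N (d * r1) : ℝ) * N (d * r2)) ^ (-(1 / 6) : ℝ) *
        phiq (d * (r1 * r2)) : ℝ) : ℂ) * CM.IV V =
      (A : ℂ) * (∑' ν : O, (if ν = 0 then 0 else cop (r1 * r2) ν *
        PO.Vo V ((N ν : ℝ) ^ 3 * T)) - CM.kap3 * ((T ^ (-(1 / 3) : ℝ) : ℝ) : ℂ) * CM.IV V *
        phiq (r1 * r2)) := by
    rw [e3]
    have hc : (pcoef B W d r1 r2 : ℂ) * ((1 / 3) * (c1 : ℂ)) = (A : ℂ) := by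
      rw [← hcoef]; push_cast; ring
    push_cast
    linear_combination (∑' ν : O, (if ν = 0 then 0 else cop (r1 * r2) ν *
        PO.Vo V ((N ν : ℝ) ^ 3 * T))) * hc
  rw [e2, e4, norm_mul, Complex.norm_real, Real.norm_of_nonneg hA0]
  have hmin : min 1 (T ^ (-(1 / 3) : ℝ)) ≤
      3 * min 1 ((N (r1 * r2) / (B * N d) : ℝ) ^ (1 / 3 : ℝ)) := by
    rw [hTdef, T_rpow hB hNd hN3]
    set x := (N (r1 * r2) / (B * N d) : ℝ) ^ (1 / 3 : ℝ)
    rcases le_total 1 x with hx | hx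
    · rw [min_eq_left hx]
      exact (min_le_left _ _).trans (by norm_num)
    · rw [min_eq_right hx]
      exact min_le_right _ _
  have hmin0 : 0 ≤ min 1 ((N (r1 * r2) / (B * N d) : ℝ) ^ (1 / 3 : ℝ)) :=
    le_min zero_le_one (by positivity)
  have e5 : C * phiq W * B * N d * ((N (d * r1) : ℝ) * N (d * r2)) ^ (-(1 / 2) : ℝ) *
      tau (r1 * r2) * min 1 ((N (r1 * r2) / (B * N d) : ℝ) ^ (1 / 3 : ℝ)) =
      (C * phiq W * (B / Real.sqrt (N (r1 * r2))) * tau (r1 * r2)) *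
        min 1 ((N (r1 * r2) / (B * N d) : ℝ) ^ (1 / 3 : ℝ)) := by
    rw [N_pair]
    have := err_rpow hNd hN3
    linear_combination (C * phiq W * B * tau (r1 * r2) *
      min 1 ((N (r1 * r2) / (B * N d) : ℝ) ^ (1 / 3 : ℝ))) * this
  rw [e5]
  have h27 : A ≤ phiq W * (B / Real.sqrt (N (r1 * r2))) / 3 := by
    rw [hA]
    have hs3 : 1 ≤ Real.sqrt 3 := by
      rw [Real.one_le_sqrt]; norm_num
    have : 2 * (phiq W * phiq d) / (27 * Real.sqrt 3) ≤ phiq W / 3 := by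
      rw [div_le_div_iff₀ (by positivity) (by norm_num)]
      nlinarith [mul_pos hpW hpd, mul_le_mul_of_nonneg_left hpd1 hpW.le,
        mul_nonneg hpW.le (sub_nonneg.2 hs3)]
    calc _ ≤ phiq W / 3 * (B / Real.sqrt (N (r1 * r2))) := by gcongr
      _ = _ := by ring
  calc A * ‖∑' ν : O, (if ν = 0 then 0 else cop (r1 * r2) ν *
        PO.Vo V ((N ν : ℝ) ^ 3 * T)) - CM.kap3 * ((T ^ (-(1 / 3) : ℝ) : ℝ) : ℂ) * CM.IV V *
        phiq (r1 * r2)‖ ≤ (phiq W * (B / Real.sqrt (N (r1 * r2))) / 3) *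
        (C * tau (r1 * r2) * (3 * min 1 ((N (r1 * r2) / (B * N d) : ℝ) ^ (1 / 3 : ℝ)))) := by
        apply mul_le_mul h27 (hb.trans (by gcongr)) (norm_nonneg _) (by positivity)
    _ = _ := by ring

end Vale.Agent.P006.V1
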