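import Vale.Agent.P006.V1.Inst
import Vale.Agent.P006.CM.CubeSum
import Vale.Agent.P006.H845.Sqf
import Vale.Agent.P006.KU.Phi

/-!
P006, block V1M (helper474): Ramanujan sums, the general term of the dual sum, its `k = 0` term
and its summability.
-/

namespace Vale.Agent.P006.V1

open MeasureTheory Set
open scoped BigOperators Classical
open Vale.Agent.P006
open Vale.Agent.P006.KU (phi phi_primary beta)

/-! ### Ramanujan sums -/

theorem norm_cop_le (m x : O) : ‖cop m x‖ ≤ 1 := by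
  rw [cop]; split_ifs <;> simp

theorem norm_ram_le {m : O} (hm : m ≠ 0) (k : O) : ‖ram m k‖ ≤ N m := by
  have : NeZero m := ⟨hm⟩
  rw [ram, rsum_eq_sum]
  refine (norm_sum_le _ _).trans ?_
  have h : ∀ x ∈ (Finset.univ : Finset (Rs m)),
      ‖cop m (Quotient.out x) * E m (Quotient.out x * k)‖ ≤ 1 := by
    intro x _
    rw [norm_mul, norm_E, mul_one]
    exact norm_cop_le _ _
  refine (Finset.sum_le_sum h).trans ?_
  rw [Finset.sum_const, Finset.card_univ, fcard_Rs]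
  simp

theorem E_of_dvd {m k : O} (hm : m ≠ 0) (h : m ∣ k) : E m k = 1 := by
  obtain ⟨y, rfl⟩ := h
  have h1 : E m (m * y) = E 1 y := by
    have := E_mul_cancel hm 1 y
    rwa [mul_one] at this
  rw [h1, E, map_one, div_one, e_TrC_toC]

theorem sum_isUnit (m : O) [NeZero m] :
    ∑ x : Rs m, (if IsUnit x then (1 : ℂ) else 0) = phi m := by
  have h : ∀ x : Rs m, (if IsUnit x then (1 : ℂ) else 0) = (1 : MulChar (Rs m) ℂ) x := by
    intro x
    by_cases hx : IsUnit x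
    · rw [if_pos hx, MulChar.one_apply hx]
    · rw [if_neg hx, MulChar.map_nonunit _ hx]
  rw [Finset.sum_congr rfl (fun x _ => h x), MulChar.sum_one_eq_card_units, phi,
    Nat.card_eq_fintype_card]

theorem ram_of_dvd {m k : O} (hm : m ≠ 0) (h : m ∣ k) : ram m k = phi m := by
  have : NeZero m := ⟨hm⟩
  rw [ram, rsum_eq_sum, ← sum_isUnit]
  refine Finset.sum_congr rfl fun x _ => ?_
  rw [E_of_dvd hm (Dvd.dvd.mul_left h _), mul_one, cop]
  have h1 : IsCoprime (Quotient.out x : O) m ↔ IsUnit x := by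
    rw [← isUnit_rs_iff, rs_out]
  simp only [h1]

theorem phi_eq_phiq {m : O} (hm : Primary m) : (phi m : ℝ) = N m * phiq m := by
  rw [phi_primary m hm, beta, phiq]
  simp only [one_div]

theorem ram_of_dvd' {m k : O} (hm : Primary m) (h : m ∣ k) :
    ram m k = ((N m * phiq m : ℝ) : ℂ) := by
  rw [ram_of_dvd hm.ne_zero h, ← phi_eq_phiq hm]
  simp

/-! ### The general term -/

/-- the general term of the dual sum -/
noncomputable def pterm (V : ℝ → ℂ) (B : ℝ) (W d r1 r2 k : O) : ℂ :=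
  E (sq3 * 3) k * ram W k * ram d k *
    (ch r1 (k * d * W ^ 2) * (starRingEnd ℂ) (ch r2 (k * d * W ^ 2))) *
    PO.Vo V (B * N k / (27 * N (W * (d * (r1 * r2)))))

/-- the coefficient of the dual sum -/
noncomputable def pcoef (B : ℝ) (W d r1 r2 : O) : ℝ :=
  2 * B / (9 * Real.sqrt 3 * N W * N d * Real.sqrt (N (r1 * r2)))

theorem summable_Vo {V : ℝ → ℂ} (hV : PO.Wt V) {T : ℝ} (hT : 0 < T) :
    Summable (fun k : O => PO.Vo V (T * N k)) := by
  have h := hV.FT_rad_dec.summable 0 (q := ((Real.sqrt T : ℝ) : ℂ))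
    (by simpa using (Real.sqrt_pos.2 hT).ne')
  refine h.congr fun k => ?_
  rw [PO.FT_rad, zero_add, norm_mul, mul_pow, ← N_eq_sq_norm, Complex.norm_real,
    Real.norm_of_nonneg (Real.sqrt_nonneg _), Real.sq_sqrt hT.le]

theorem norm_pterm_le {W d : O} (hW : W ≠ 0) (hd : d ≠ 0) (V : ℝ → ℂ) (B : ℝ) (r1 r2 k : O) :
    ‖pterm V B W d r1 r2 k‖ ≤ N W * N d *
      ‖PO.Vo V (B / (27 * N (W * (d * (r1 * r2)))) * N k)‖ := by
  rw [pterm, norm_mul, norm_mul, norm_mul, norm_mul, norm_E, one_mul, norm_mul]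
  have h1 := norm_ram_le hW k
  have h2 := norm_ram_le hd k
  have h3 : ‖ch r1 (k * d * W ^ 2)‖ * ‖(starRingEnd ℂ) (ch r2 (k * d * W ^ 2))‖ ≤ 1 := by
    rw [RCLike.norm_conj]
    exact mul_le_one₀ (norm_ch_le _ _) (norm_nonneg _) (norm_ch_le _ _)
  have h4 : B * N k / (27 * N (W * (d * (r1 * r2)))) =
      B / (27 * N (W * (d * (r1 * r2)))) * N k := by ring
  rw [h4]
  have h5 : 0 ≤ ‖PO.Vo V (B / (27 * N (W * (d * (r1 * r2)))) * N k)‖ := norm_nonneg _
  calc ‖ram W k‖ * ‖ram d k‖ * (‖ch r1 (k * d * W ^ 2)‖ *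
        ‖(starRingEnd ℂ) (ch r2 (k * d * W ^ 2))‖) *
        ‖PO.Vo V (B / (27 * N (W * (d * (r1 * r2)))) * N k)‖
      ≤ (N W * N d) * 1 * ‖PO.Vo V (B / (27 * N (W * (d * (r1 * r2)))) * N k)‖ := by
        gcongr
    _ = _ := by ring

theorem summable_pterm {V : ℝ → ℂ} (hV : PO.Wt V) {B : ℝ} (hB : 0 < B) {W d r1 r2 : O}
    (hW : W ≠ 0) (hd : d ≠ 0) (h1 : r1 ≠ 0) (h2 : r2 ≠ 0) :
    Summable (pterm V B W d r1 r2) := by
  have hN : (0 : ℝ) < N (W * (d * (r1 * r2))) := by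
    exact_mod_cast N_pos (mul_ne_zero hW (mul_ne_zero hd (mul_ne_zero h1 h2)))
  have h := ((summable_Vo hV (T := B / (27 * N (W * (d * (r1 * r2)))))
    (by positivity)).norm).mul_left ((N W : ℝ) * N d)
  exact Summable.of_norm_bounded h (norm_pterm_le hW hd V B r1 r2)

/-! ### The zero frequency -/

theorem ch_zero_of_ne_one {r : O} (hr : Primary r) (h : r ≠ 1) : ch r 0 = 0 := by
  rw [ch, sym_eq_zero.2, map_zero]
  intro hc
  rw [isCoprime_zero_left] at hc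
  exact h (hr.eq_one hc)

theorem Vo_zero (V : ℝ → ℂ) : PO.Vo V 0 = ∫ z : ℂ, V (‖z‖ ^ 2) := by
  rw [PO.Vo, PO.FT]
  simp [PO.rad]

theorem Vo_zero' (V : ℝ → ℂ) : PO.Vo V 0 = Real.pi * ∫ u in Ioi (0 : ℝ), V u := by
  rw [Vo_zero, CM.integral_radial (fun r => V (r ^ 2))]
  have hs := integral_comp_rpow_Ioi (fun u : ℝ => V u) (p := 2) (by norm_num)
  rw [← hs, ← integral_const_mul, ← integral_const_mul]
  refine setIntegral_congr_fun measurableSet_Ioi (fun x hx => ?_)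
  have hx : 0 < x := hx
  have h1 : x ^ ((2 : ℝ) - 1) = x := by
    rw [show (2 : ℝ) - 1 = 1 by norm_num, Real.rpow_one]
  have h2 : x ^ (2 : ℝ) = x ^ 2 := by exact_mod_cast Real.rpow_natCast x 2
  rw [h1, h2]
  simp only [abs_of_pos (show (0 : ℝ) < 2 by norm_num), Complex.real_smul]
  push_cast
  ring

theorem pterm_zero_of_ne {V : ℝ → ℂ} {B : ℝ} {W d r1 r2 : O} (h1 : Primary r1) (h2 : Primary r2)
    (h : ¬ (r1 = 1 ∧ r2 = 1)) : pterm V B W d r1 r2 0 = 0 := by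
  rw [pterm]
  simp only [zero_mul]
  by_cases h3 : r1 = 1
  · have h4 : r2 ≠ 1 := fun h4 => h ⟨h3, h4⟩
    rw [ch_zero_of_ne_one h2 h4]; simp
  · rw [ch_zero_of_ne_one h1 h3]; simp

theorem pterm_zero {V : ℝ → ℂ} {B : ℝ} {W d : O} (hW : Primary W) (hd : Primary d) :
    pterm V B W d 1 1 0 = ((N W * phiq W * (N d * phiq d) : ℝ) : ℂ) *
      (Real.pi * ∫ u in Ioi (0 : ℝ), V u) := by
  rw [pterm, ram_of_dvd' hW (dvd_zero _), ram_of_dvd' hd (dvd_zero _), E_zero]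
  simp only [zero_mul, ch_one_left, map_one, N_zero, Nat.cast_zero, mul_zero, zero_div, Vo_zero']
  push_cast
  ring

/-- the zero frequency with its coefficient: only the diagonal `r1 = r2 = 1` contributes -/
theorem pcoef_mul_pterm_zero {V : ℝ → ℂ} {B : ℝ} {W d : O} (hW : Primary W) (hd : Primary d) :
    (pcoef B W d 1 1 : ℂ) * pterm V B W d 1 1 0 =
      ((2 * Real.pi / (9 * Real.sqrt 3) * phiq W * B * phiq d : ℝ) : ℂ) *
        ∫ u in Ioi (0 : ℝ), V u := by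
  rw [pterm_zero hW hd, pcoef]
  have pW : (N W : ℂ) ≠ 0 := by exact_mod_cast (N_pos hW.ne_zero).ne'
  have pd : (N d : ℂ) ≠ 0 := by exact_mod_cast (N_pos hd.ne_zero).ne'
  have p3 : ((Real.sqrt 3 : ℝ) : ℂ) ≠ 0 := by
    rw [Complex.ofReal_ne_zero]; exact (Real.sqrt_pos.2 (by norm_num)).ne'
  simp only [mul_one, N_one, Nat.cast_one, Real.sqrt_one]
  push_cast
  field_simp

end Vale.Agent.P006.V1
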